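import Mathlib.Probability.ProbabilityMassFunction.Constructions
import Mathlib.Topology.UnitInterval

/-!
Definitions for the worst-case sample complexity of trace reconstruction.
-/

namespace Vale.Agent.P321

open scoped unitInterval ENNReal

/-- A coin that shows `true` with probability `q` and `false` with probability `1 - q`. -/
noncomputable def coin (q : I) : PMF Bool :=
  PMF.ofFintype (fun b => if b then ENNReal.ofReal q else ENNReal.ofReal (1 - q)) (by
    rw [Fintype.sum_bool]
    simp only [if_true, Bool.false_eq_true, if_false]
    rw [← ENNReal.ofReal_add q.2.1 (by linarith [q.2.2])]
    simp)

/-- The law `D_q(x)` of a trace of the string `x`: every bit is deleted independently with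
probability `q`, the surviving bits are concatenated in their original order. -/
noncomputable def traceLaw (q : I) : List Bool → PMF (List Bool)
  | [] => PMF.pure []
  | b :: x => (coin q).bind fun deleted =>
      (traceLaw q x).map fun t => if deleted then t else b :: t

/-- The law of a list of `m` independent traces of `x`. -/
noncomputable def tracesLaw (q : I) (x : List Bool) : ℕ → PMF (List (List Bool))
  | 0 => PMF.pure []
  | m + 1 => (traceLaw q x).bind fun t => (tracesLaw q x m).map fun ts => t :: ts

/-- A randomized estimator of strings of length `n`: it maps every finite sequence of strings to
a probability distribution on strings of length `n`. -/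
abbrev Estimator (n : ℕ) : Type := List (List Bool) → PMF (Fin n → Bool)

/-- The estimator `est`, given `m` independent traces, outputs the unknown string with probability
at least `2/3`, for every string of length `n`. -/
def Reconstructs (q : I) (n m : ℕ) (est : Estimator n) : Prop :=
  ∀ x : Fin n → Bool, 2 / 3 ≤ ((tracesLaw q (List.ofFn x) m).bind est) x

/-- The worst-case sample complexity `T_q(n)` of trace reconstruction: the least number `m` of
traces for which some estimator succeeds (`⊤` if there were none). -/
noncomputable def T (q : I) (n : ℕ) : ℕ∞ :=
  ⨅ (m : ℕ) (_ : ∃ est : Estimator n, Reconstructs q n m est), (m : ℕ∞)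

end Vale.Agent.P321
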